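import Mathlib

/-!
# Grid lower bound for P249 (helper62): shared definitions

The grid is `Fin (2 * M + 1)` with values `gv M t = t - M` in `{-M, ..., M}`, discrete Gaussian
weights `gphi M t = exp (-(t - M)^2 / M^2)`, product weights `gPhi`, squared Euclidean distance
`gdist2` and the Rademacher sums `gX`.
-/

namespace Vale.Agent.Lib.P249.H62

open Finset

/-- value of a grid index: an integer in `[-M, M]`, as a real number -/
noncomputable def gv (M : ℕ) (t : Fin (2 * M + 1)) : ℝ := (t : ℝ) - M

/-- discrete Gaussian weight -/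
noncomputable def gphi (M : ℕ) (t : Fin (2 * M + 1)) : ℝ := Real.exp (-(gv M t) ^ 2 / (M : ℝ) ^ 2)

/-- total weight of one coordinate -/
noncomputable def gZ (M : ℕ) : ℝ := ∑ t : Fin (2 * M + 1), gphi M t

/-- product weight on `k` coordinates -/
noncomputable def gPhi (M k : ℕ) (x : Fin k → Fin (2 * M + 1)) : ℝ := ∏ j, gphi M (x j)

/-- squared Euclidean distance of two grid points -/
noncomputable def gdist2 (M k : ℕ) (x y : Fin k → Fin (2 * M + 1)) : ℝ :=
  ∑ j, (gv M (x j) - gv M (y j)) ^ 2

/-- sign of a bit -/
noncomputable def sg (b : Bool) : ℝ := if b then -1 else 1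

/-- Rademacher sum: the coordinate `e` of the point attached to the grid point `x` -/
noncomputable def gX (M k : ℕ) (x : Fin k → Fin (2 * M + 1)) (e : Fin k → Bool) : ℝ :=
  ∑ j, gv M (x j) * sg (e j)

end Vale.Agent.Lib.P249.H62
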