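import Vale.Agent.Lib.P249.helper62.GridDefs
import Vale.Agent.Lib.P249.helper91.CubeX1
import Vale.Agent.Lib.P249.helper69.X2

/-!
# Grid lower bound for P249 (helper62): Khinchine bounds, weights, injectivity
-/

namespace Vale.Agent.Lib.P249.H62

open Finset

theorem sg_eq91 : sg = Vale.Agent.Lib.P249.H91.sg := rfl

theorem sg_eq69 : sg = Vale.Agent.Lib.P249.H69.sg := rfl

/-- Khinchine upper bound, arbitrary real coefficients (helper91's `khinchin_cube`). -/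
theorem khin_upper (k : ℕ) (q : ℝ) (hq : 0 < q) (c : Fin k → ℝ) :
    ∑ e : Fin k → Bool, |∑ j, c j * sg (e j)| ^ q
      ≤ 2 * 2 ^ k * (q * (∑ j, c j ^ 2) / Real.exp 1) ^ (q / 2) := by
  rw [sg_eq91]
  exact Vale.Agent.Lib.P249.H91.khinchin_cube k c q hq

/-- Khinchine lower bound for `q ≥ 2`, arbitrary real coefficients. -/
theorem khin_lower (k : ℕ) (q : ℝ) (hq : 2 ≤ q) (c : Fin k → ℝ) :
    (2:ℝ) ^ k * (∑ j, c j ^ 2) ^ (q / 2) ≤ ∑ e : Fin k → Bool, |∑ j, c j * sg (e j)| ^ q := by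
  have h1 := Vale.Agent.Lib.P249.H69.card_mul_rpow_le_sum_abs_rpow
    (fun e : Fin k → Bool => ∑ j, c j * sg (e j)) q hq
  have h2 : ∑ e : Fin k → Bool, (∑ j, c j * sg (e j)) ^ 2 = 2 ^ k * ∑ j, c j ^ 2 := by
    have := Vale.Agent.Lib.P249.H69.sum_rad_sq c
    rw [sg_eq69]
    exact this
  have hcard : (Fintype.card (Fin k → Bool) : ℝ) = 2 ^ k := by
    simp
  rw [h2, hcard] at h1
  have h3 : ((2:ℝ) ^ k * ∑ j, c j ^ 2) / 2 ^ k = ∑ j, c j ^ 2 := by
    have h7 : (2:ℝ) ^ k ≠ 0 := by positivity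
    field_simp
  rw [h3] at h1
  exact h1

theorem gv_sq_le (M : ℕ) (t : Fin (2 * M + 1)) : (gv M t) ^ 2 ≤ (M : ℝ) ^ 2 := by
  have h1 : (t : ℝ) ≤ 2 * M := by
    have := t.2
    have h : (t : ℕ) ≤ 2 * M := by omega
    exact_mod_cast h
  have h0 : (0 : ℝ) ≤ (t : ℝ) := by positivity
  unfold gv
  nlinarith

theorem gphi_le_one (M : ℕ) (t : Fin (2 * M + 1)) : gphi M t ≤ 1 := by
  unfold gphi
  rw [← Real.exp_zero]
  apply Real.exp_le_exp.mpr
  have : 0 ≤ (gv M t) ^ 2 / (M : ℝ) ^ 2 := by positivity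
  rw [neg_div]
  linarith

theorem gphi_pos (M : ℕ) (t : Fin (2 * M + 1)) : 0 < gphi M t := Real.exp_pos _

theorem gphi_ge (M : ℕ) (hM : 1 ≤ M) (t : Fin (2 * M + 1)) : Real.exp (-1) ≤ gphi M t := by
  unfold gphi
  apply Real.exp_le_exp.mpr
  have hMpos : (0 : ℝ) < (M : ℝ) ^ 2 := by
    have : (0 : ℝ) < M := by exact_mod_cast hM
    positivity
  rw [neg_div, neg_le_neg_iff, div_le_one hMpos]
  exact gv_sq_le M t

/-- bounds on the one-coordinate total weight. -/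
theorem gZ_bounds (M : ℕ) (hM : 1 ≤ M) :
    (2 * (M : ℝ) + 1) / Real.exp 1 ≤ gZ M ∧ gZ M ≤ 2 * (M : ℝ) + 1 := by
  constructor
  · unfold gZ
    have h : ∑ _t : Fin (2 * M + 1), Real.exp (-1) ≤ ∑ t : Fin (2 * M + 1), gphi M t :=
      Finset.sum_le_sum (fun t _ => gphi_ge M hM t)
    simp only [Finset.sum_const, Finset.card_univ, Fintype.card_fin, nsmul_eq_mul] at h
    rw [Real.exp_neg] at h
    push_cast at h
    rw [div_eq_mul_inv]
    exact h
  · unfold gZ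
    have h : ∑ t : Fin (2 * M + 1), gphi M t ≤ ∑ _t : Fin (2 * M + 1), (1 : ℝ) :=
      Finset.sum_le_sum (fun t _ => gphi_le_one M t)
    simp only [Finset.sum_const, Finset.card_univ, Fintype.card_fin, nsmul_eq_mul, mul_one] at h
    push_cast at h
    exact h

theorem gZ_pos (M : ℕ) : 0 < gZ M := by
  unfold gZ
  exact Finset.sum_pos (fun t _ => gphi_pos M t) Finset.univ_nonempty

/-- the defect is summable: `(Z + 1)^(2k) ≤ e * Z^(2k)` for `M = 3k`. -/
theorem gZ_defect (k : ℕ) (hk : 1 ≤ k) :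
    (gZ (3 * k) + 1) ^ (2 * k) ≤ Real.exp 1 * gZ (3 * k) ^ (2 * k) := by
  have hM : 1 ≤ 3 * k := by omega
  have hZ := (gZ_bounds (3 * k) hM).1
  have hZpos := gZ_pos (3 * k)
  have hkpos : (0 : ℝ) < k := by exact_mod_cast hk
  have he : Real.exp 1 < 3 := by
    have := Real.exp_one_lt_d9
    linarith
  have hepos : 0 < Real.exp 1 := Real.exp_pos 1
  -- 1 / Z ≤ e / (6k+1)
  have h1 : 1 / gZ (3 * k) ≤ Real.exp 1 / (2 * ((3 * k : ℕ) : ℝ) + 1) := by
    rw [div_le_div_iff₀ hZpos (by positivity)]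
    rw [div_le_iff₀ hepos] at hZ
    linarith
  have h2 : gZ (3 * k) + 1 = gZ (3 * k) * (1 + 1 / gZ (3 * k)) := by
    field_simp
  rw [h2, mul_pow, mul_comm]
  apply mul_le_mul_of_nonneg_right _ (by positivity)
  have h3 : 1 + 1 / gZ (3 * k) ≤ Real.exp (1 / gZ (3 * k)) := by
    have := Real.add_one_le_exp (1 / gZ (3 * k))
    linarith
  have h4 : (1 + 1 / gZ (3 * k)) ^ (2 * k) ≤ Real.exp (1 / gZ (3 * k)) ^ (2 * k) :=
    pow_le_pow_left₀ (by positivity) h3 _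
  refine le_trans h4 ?_
  rw [← Real.exp_nat_mul]
  apply Real.exp_le_exp.mpr
  push_cast
  push_cast at h1
  have h5 : (2 * (k : ℝ)) * (1 / gZ (3 * k)) ≤ (2 * k) * (Real.exp 1 / (2 * (3 * (k : ℝ)) + 1)) :=
    mul_le_mul_of_nonneg_left h1 (by positivity)
  refine le_trans h5 ?_
  rw [mul_div_assoc', div_le_one (by positivity)]
  nlinarith

theorem gv_injective (M : ℕ) : Function.Injective (gv M) := by
  intro t t' h
  unfold gv at h
  have h1 : (t : ℝ) = (t' : ℝ) := by linarith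
  have h2 : (t : ℕ) = (t' : ℕ) := by exact_mod_cast h1
  exact Fin.ext h2

theorem gX_sub (M k : ℕ) (x y : Fin k → Fin (2 * M + 1)) (e : Fin k → Bool) :
    gX M k x e - gX M k y e = ∑ j, (gv M (x j) - gv M (y j)) * sg (e j) := by
  unfold gX
  rw [← Finset.sum_sub_distrib]
  apply Finset.sum_congr rfl
  intro j _
  ring

/-- the points are distinct. -/
theorem gX_injective (M k : ℕ) : Function.Injective (gX M k) := by
  intro x y hxy
  have h1 := khin_lower k 2 (le_refl 2) (fun j => gv M (x j) - gv M (y j))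
  have h2 : ∀ e : Fin k → Bool, ∑ j, (gv M (x j) - gv M (y j)) * sg (e j) = 0 := by
    intro e
    rw [← gX_sub, hxy, sub_self]
  simp only [h2, abs_zero] at h1
  have h3 : (0 : ℝ) ^ (2 : ℝ) = 0 := Real.zero_rpow (by norm_num)
  simp only [h3, Finset.sum_const_zero] at h1
  have h4 : (0 : ℝ) ≤ ∑ j, (gv M (x j) - gv M (y j)) ^ 2 :=
    Finset.sum_nonneg (fun j _ => sq_nonneg _)
  have h5 : (2 : ℝ) / 2 = 1 := by norm_num
  rw [h5, Real.rpow_one] at h1
  have h6 : ∑ j, (gv M (x j) - gv M (y j)) ^ 2 = 0 := by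
    have h7 : (0 : ℝ) < 2 ^ k := by positivity
    nlinarith
  have h8 := (Finset.sum_eq_zero_iff_of_nonneg (fun j _ => sq_nonneg _)).1 h6
  funext j
  have h9 := h8 j (Finset.mem_univ j)
  have h10 : gv M (x j) = gv M (y j) := by
    have := pow_eq_zero_iff (n := 2) (by norm_num) |>.1 h9
    linarith
  exact gv_injective M h10

end Vale.Agent.Lib.P249.H62
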