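import Vale.Agent.Lib.P249.helper62.GridBasic
import Vale.Agent.Lib.P249.helper55.GridSpread
import Vale.Agent.Lib.P249.helper59.GridConc
import Vale.Agent.Lib.P249.helper38.GridPair
import Vale.Agent.Lib.P249.helper95.GridOne

/-!
# Grid lower bound for P249 (helper62): assembly of the finite core

`grid_pair` and `grid_conc` close the pool pieces (one-coordinate inequality of helper95,
tensorization of helper3 and helper38, moments of helper59); `grid_core` is the finite form of the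
lower bound: every map of the grid points into `d` coordinates with distortion `D` in the
`q`-th power sums has `(1/11) (2k/(3q^2))^(q/2) ≤ D^q d`.
-/

namespace Vale.Agent.Lib.P249.H62

open Finset

/-- pair form of the concentration inequality on the grid. -/
theorem grid_pair (M : ℕ) (hM : 1 ≤ M) (k : ℕ) (f g : (Fin k → Fin (2 * M + 1)) → ℝ)
    (h : ∀ x y, g x ≤ f y + gdist2 M k x y / (2 * (M : ℝ) ^ 2)) :
    (∑ x, gPhi M k x * Real.exp (g x)) * (∑ y, gPhi M k y * Real.exp (-f y))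
      ≤ (gZ M + 1) ^ (2 * k) :=
  Vale.Agent.Lib.P249.H38g.grid_pair_of_one M
    (fun a b N ha hb hN h' => Vale.Agent.Lib.P249.H95.PL.grid_one M hM a b N ha hb hN h') k f g h

/-- moments of differences of Lipschitz functions on the grid. -/
theorem grid_conc (M : ℕ) (hM : 1 ≤ M) (k : ℕ) (q : ℝ) (hq : 1 ≤ q) (Lam : ℝ) (hLam : 0 ≤ Lam)
    (h : (Fin k → Fin (2 * M + 1)) → ℝ)
    (hlip : ∀ x y, |h x - h y| ≤ Lam * Real.sqrt (gdist2 M k x y)) :
    ∑ x, ∑ y, gPhi M k x * gPhi M k y * |h x - h y| ^ q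
      ≤ 2 * (gZ M + 1) ^ (2 * k) * (q * (M : ℝ) ^ 2 / Real.exp 1) ^ (q / 2) * Lam ^ q :=
  Vale.Agent.Lib.P249.H59g.grid_conc_of_pair M hM k (fun f g hfg => grid_pair M hM k f g hfg)
    q hq Lam hLam h hlip

/-- spread of the product weights (helper55). -/
theorem grid_spread (M : ℕ) (hM : 1 ≤ M) (k : ℕ) (hk : 1 ≤ k) (q : ℝ) (hq : 2 ≤ q) :
    gZ M ^ (2 * k) * (2 * k * (M : ℝ) ^ 2 / (3 * Real.exp 2)) ^ (q / 2)
      ≤ ∑ x, ∑ y, gPhi M k x * gPhi M k y * (gdist2 M k x y) ^ (q / 2) :=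
  Vale.Agent.Lib.P249.H55.grid_spread M hM k hk q hq

/-- finite core of the grid lower bound, for a general grid size `M` with summable defect. -/
theorem grid_core_aux (M k : ℕ) (hM : 1 ≤ M) (hk : 1 ≤ k) (q : ℝ) (hq : 2 ≤ q)
    (hdef : (gZ M + 1) ^ (2 * k) ≤ Real.exp 1 * gZ M ^ (2 * k))
    (d : ℕ) (s D : ℝ) (hs : 0 < s)
    (y : (Fin k → Fin (2 * M + 1)) → Fin d → ℝ)
    (hlow : ∀ c c', s ^ q * ∑ e, |gX M k c e - gX M k c' e| ^ q
      ≤ ∑ i, |y c i - y c' i| ^ q)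
    (hup : ∀ c c', ∑ i, |y c i - y c' i| ^ q
      ≤ D ^ q * s ^ q * ∑ e, |gX M k c e - gX M k c' e| ^ q) :
    (1 / 11 : ℝ) * (2 * k / (3 * q ^ 2)) ^ (q / 2) ≤ D ^ q * d := by
  have hq0 : 0 < q := by linarith
  have hq2pos : 0 < q / 2 := by linarith
  generalize hT : D ^ q = T at hup ⊢
  have hsq : 0 < s ^ q := Real.rpow_pos_of_pos hs q
  have hZpos : 0 < gZ M := gZ_pos M
  have hMpos : (0:ℝ) < M := by exact_mod_cast hM
  have hkpos : (0:ℝ) < k := by exact_mod_cast hk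
  have hepos : 0 < Real.exp 1 := Real.exp_pos 1
  have hPhi_nonneg : ∀ c, 0 ≤ gPhi M k c :=
    fun c => Finset.prod_nonneg (fun j _ => (gphi_pos M (c j)).le)
  have hA_nonneg : ∀ c c', 0 ≤ gdist2 M k c c' :=
    fun c c' => Finset.sum_nonneg (fun j _ => sq_nonneg _)
  -- Khinchine for differences of points
  have hkl : ∀ c c', (2:ℝ) ^ k * (gdist2 M k c c') ^ (q / 2)
      ≤ ∑ e, |gX M k c e - gX M k c' e| ^ q := by
    intro c c'
    have h := khin_lower k q hq (fun j => gv M (c j) - gv M (c' j))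
    simp only [gX_sub]
    exact h
  have hku : ∀ c c', ∑ e, |gX M k c e - gX M k c' e| ^ q
      ≤ 2 * 2 ^ k * (q * gdist2 M k c c' / Real.exp 1) ^ (q / 2) := by
    intro c c'
    have h := khin_upper k q hq0 (fun j => gv M (c j) - gv M (c' j))
    simp only [gX_sub]
    exact h
  -- the distortion constant is nonnegative
  have hT0 : 0 ≤ T := by
    by_contra hneg
    rw [not_le] at hneg
    have hA0 : ∀ c c', gdist2 M k c c' = 0 := by
      intro c c'
      have h1 := hup c c'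
      have h2 : 0 ≤ ∑ i, |y c i - y c' i| ^ q :=
        Finset.sum_nonneg (fun i _ => Real.rpow_nonneg (abs_nonneg _) q)
      have h3 := hkl c c'
      have h5 : ∑ e, |gX M k c e - gX M k c' e| ^ q ≤ 0 := by
        by_contra h6
        rw [not_le] at h6
        have h7 : T * s ^ q < 0 := mul_neg_of_neg_of_pos hneg hsq
        have h8 : T * s ^ q * ∑ e, |gX M k c e - gX M k c' e| ^ q < 0 :=
          mul_neg_of_neg_of_pos h7 h6
        linarith
      have h7 : (gdist2 M k c c') ^ (q / 2) ≤ 0 := by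
        have h8 : (0:ℝ) < 2 ^ k := by positivity
        nlinarith
      have h9 := Real.rpow_nonneg (hA_nonneg c c') (q / 2)
      have h10 : (gdist2 M k c c') ^ (q / 2) = 0 := le_antisymm h7 h9
      exact ((Real.rpow_eq_zero_iff_of_nonneg (hA_nonneg c c')).1 h10).1
    have hsp := grid_spread M hM k hk q hq
    simp only [hA0, Real.zero_rpow (ne_of_gt hq2pos), mul_zero, Finset.sum_const_zero] at hsp
    have hpos : 0 < gZ M ^ (2 * k) * (2 * k * (M : ℝ) ^ 2 / (3 * Real.exp 2)) ^ (q / 2) := by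
      apply mul_pos (pow_pos hZpos _)
      apply Real.rpow_pos_of_pos
      have := Real.exp_pos 2
      positivity
    linarith
  -- the Lipschitz constant of every coordinate
  obtain ⟨C0, hC0⟩ : ∃ C0 : ℝ, C0 = T * s ^ q * (2 * 2 ^ k * (q / Real.exp 1) ^ (q / 2)) := ⟨_, rfl⟩
  have hqe : 0 ≤ q / Real.exp 1 := div_nonneg hq0.le hepos.le
  have hC0nn : 0 ≤ C0 := by
    rw [hC0]
    exact mul_nonneg (mul_nonneg hT0 hsq.le)
      (mul_nonneg (by positivity) (Real.rpow_nonneg hqe _))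
  obtain ⟨Lam, hLam⟩ : ∃ Lam : ℝ, Lam = C0 ^ (1 / q) := ⟨_, rfl⟩
  have hLam0 : 0 ≤ Lam := by rw [hLam]; exact Real.rpow_nonneg hC0nn _
  have hLamq : Lam ^ q = C0 := by
    rw [hLam, ← Real.rpow_mul hC0nn, one_div, inv_mul_cancel₀ (ne_of_gt hq0), Real.rpow_one]
  have hlip : ∀ i c c', |y c i - y c' i| ≤ Lam * Real.sqrt (gdist2 M k c c') := by
    intro i c c'
    have hA := hA_nonneg c c'
    have h1 : |y c i - y c' i| ^ q ≤ ∑ i, |y c i - y c' i| ^ q :=
      Finset.single_le_sum (f := fun i => |y c i - y c' i| ^ q)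
        (fun i _ => Real.rpow_nonneg (abs_nonneg _) q) (Finset.mem_univ i)
    have h2 := hup c c'
    have h3 := hku c c'
    have h4 : T * s ^ q * ∑ e, |gX M k c e - gX M k c' e| ^ q
        ≤ T * s ^ q * (2 * 2 ^ k * (q * gdist2 M k c c' / Real.exp 1) ^ (q / 2)) :=
      mul_le_mul_of_nonneg_left h3 (mul_nonneg hT0 hsq.le)
    have h5 : (q * gdist2 M k c c' / Real.exp 1) ^ (q / 2)
        = (q / Real.exp 1) ^ (q / 2) * (Real.sqrt (gdist2 M k c c')) ^ q := by
      have e1 : q * gdist2 M k c c' / Real.exp 1 = (q / Real.exp 1) * gdist2 M k c c' := by ring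
      rw [e1, Real.mul_rpow hqe hA]
      congr 1
      rw [Real.sqrt_eq_rpow, ← Real.rpow_mul hA]
      congr 1
      ring
    have h6 : |y c i - y c' i| ^ q ≤ (Lam * Real.sqrt (gdist2 M k c c')) ^ q := by
      rw [Real.mul_rpow hLam0 (Real.sqrt_nonneg _), hLamq, hC0]
      calc |y c i - y c' i| ^ q
          ≤ T * s ^ q * (2 * 2 ^ k * (q * gdist2 M k c c' / Real.exp 1) ^ (q / 2)) := by linarith
        _ = T * s ^ q * (2 * 2 ^ k * (q / Real.exp 1) ^ (q / 2))
            * Real.sqrt (gdist2 M k c c') ^ q := by rw [h5]; ring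
    exact (Real.rpow_le_rpow_iff (abs_nonneg _)
      (mul_nonneg hLam0 (Real.sqrt_nonneg _)) hq0).1 h6
  have hconc : ∀ i, ∑ c, ∑ c', gPhi M k c * gPhi M k c' * |y c i - y c' i| ^ q
      ≤ 2 * (gZ M + 1) ^ (2 * k) * (q * (M:ℝ) ^ 2 / Real.exp 1) ^ (q / 2) * Lam ^ q := by
    intro i
    exact grid_conc M hM k q (by linarith) Lam hLam0 (fun c => y c i) (hlip i)
  have hUP : ∑ c, ∑ c', gPhi M k c * gPhi M k c' * ∑ i, |y c i - y c' i| ^ q
      ≤ d * (2 * (gZ M + 1) ^ (2 * k) * (q * (M:ℝ) ^ 2 / Real.exp 1) ^ (q / 2) * Lam ^ q) := by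
    have e1 : ∑ c, ∑ c', gPhi M k c * gPhi M k c' * ∑ i, |y c i - y c' i| ^ q
        = ∑ i, ∑ c, ∑ c', gPhi M k c * gPhi M k c' * |y c i - y c' i| ^ q := by
      simp only [Finset.mul_sum]
      calc ∑ c, ∑ c', ∑ i, gPhi M k c * gPhi M k c' * |y c i - y c' i| ^ q
          = ∑ c, ∑ i, ∑ c', gPhi M k c * gPhi M k c' * |y c i - y c' i| ^ q := by
            apply Finset.sum_congr rfl
            intro c _
            exact Finset.sum_comm
        _ = _ := Finset.sum_comm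
    rw [e1]
    have e2 := Finset.sum_le_sum (s := (Finset.univ : Finset (Fin d))) (fun i _ => hconc i)
    simp only [Finset.sum_const, Finset.card_univ, Fintype.card_fin, nsmul_eq_mul] at e2
    exact e2
  have hLOW : s ^ q * 2 ^ k * (gZ M ^ (2 * k) * (2 * k * (M : ℝ) ^ 2 / (3 * Real.exp 2)) ^ (q / 2))
      ≤ ∑ c, ∑ c', gPhi M k c * gPhi M k c' * ∑ i, |y c i - y c' i| ^ q := by
    have hsp := grid_spread M hM k hk q hq
    calc s ^ q * 2 ^ k * (gZ M ^ (2 * k) * (2 * k * (M : ℝ) ^ 2 / (3 * Real.exp 2)) ^ (q / 2))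
        ≤ s ^ q * 2 ^ k * ∑ c, ∑ c', gPhi M k c * gPhi M k c' * (gdist2 M k c c') ^ (q / 2) :=
          mul_le_mul_of_nonneg_left hsp (mul_nonneg hsq.le (by positivity))
      _ = ∑ c, ∑ c', gPhi M k c * gPhi M k c'
            * (s ^ q * (2 ^ k * (gdist2 M k c c') ^ (q / 2))) := by
          rw [Finset.mul_sum]
          apply Finset.sum_congr rfl
          intro c _
          rw [Finset.mul_sum]
          apply Finset.sum_congr rfl
          intro c' _
          ring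
      _ ≤ ∑ c, ∑ c', gPhi M k c * gPhi M k c' * ∑ i, |y c i - y c' i| ^ q := by
          apply Finset.sum_le_sum
          intro c _
          apply Finset.sum_le_sum
          intro c' _
          apply mul_le_mul_of_nonneg_left _ (mul_nonneg (hPhi_nonneg c) (hPhi_nonneg c'))
          calc s ^ q * (2 ^ k * gdist2 M k c c' ^ (q / 2))
              ≤ s ^ q * ∑ e, |gX M k c e - gX M k c' e| ^ q :=
                mul_le_mul_of_nonneg_left (hkl c c') hsq.le
            _ ≤ _ := hlow c c'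
  have hchain := le_trans hLOW hUP
  rw [hLamq, hC0] at hchain
  obtain ⟨P, hP⟩ : ∃ P : ℝ, P = (q ^ 2 * (M:ℝ) ^ 2 / Real.exp 1 ^ 2) ^ (q / 2) := ⟨_, rfl⟩
  have hPpos : 0 < P := by
    rw [hP]
    exact Real.rpow_pos_of_pos (by positivity) _
  have hexp2 : Real.exp 2 = Real.exp 1 ^ 2 := by
    rw [← Real.exp_nat_mul]
    norm_num
  have e1 : (2 * k * (M : ℝ) ^ 2 / (3 * Real.exp 2)) ^ (q / 2)
      = (2 * k / (3 * q ^ 2)) ^ (q / 2) * P := by
    rw [hP, ← Real.mul_rpow (by positivity) (by positivity), hexp2]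
    congr 1
    field_simp
  have e2 : (q * (M:ℝ) ^ 2 / Real.exp 1) ^ (q / 2) * (q / Real.exp 1) ^ (q / 2) = P := by
    rw [hP, ← Real.mul_rpow (by positivity) hqe]
    congr 1
    field_simp
  obtain ⟨Zk, hZk⟩ : ∃ Zk : ℝ, Zk = gZ M ^ (2 * k) := ⟨_, rfl⟩
  have hZkpos : 0 < Zk := by rw [hZk]; exact pow_pos hZpos _
  obtain ⟨R, hR⟩ : ∃ R : ℝ, R = (2 * k / (3 * q ^ 2)) ^ (q / 2) := ⟨_, rfl⟩
  have h2k : (0:ℝ) < 2 ^ k := by positivity
  rw [e1, ← hZk, ← hR] at hchain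
  rw [← hZk] at hdef
  have hdT : 0 ≤ (d:ℝ) * T := mul_nonneg (Nat.cast_nonneg d) hT0
  have h3 : s ^ q * 2 ^ k * (Zk * (R * P))
      ≤ d * (2 * (Real.exp 1 * Zk) * (T * s ^ q * (2 * 2 ^ k))) * P := by
    calc s ^ q * 2 ^ k * (Zk * (R * P))
        ≤ d * (2 * (gZ M + 1) ^ (2 * k) * (q * (M:ℝ) ^ 2 / Real.exp 1) ^ (q / 2)
            * (T * s ^ q * (2 * 2 ^ k * (q / Real.exp 1) ^ (q / 2)))) := hchain
      _ = d * (2 * (gZ M + 1) ^ (2 * k) * (T * s ^ q * (2 * 2 ^ k)))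
            * ((q * (M:ℝ) ^ 2 / Real.exp 1) ^ (q / 2) * (q / Real.exp 1) ^ (q / 2)) := by ring
      _ = d * (2 * (gZ M + 1) ^ (2 * k) * (T * s ^ q * (2 * 2 ^ k))) * P := by rw [e2]
      _ ≤ d * (2 * (Real.exp 1 * Zk) * (T * s ^ q * (2 * 2 ^ k))) * P := by
          apply mul_le_mul_of_nonneg_right _ hPpos.le
          apply mul_le_mul_of_nonneg_left _ (Nat.cast_nonneg d)
          apply mul_le_mul_of_nonneg_right _
            (mul_nonneg (mul_nonneg hT0 hsq.le) (by positivity))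
          exact mul_le_mul_of_nonneg_left hdef (by norm_num)
  have h4 : R ≤ 4 * Real.exp 1 * (d * T) := by
    have h5 : (s ^ q * 2 ^ k * Zk * P) * R
        ≤ (s ^ q * 2 ^ k * Zk * P) * (4 * Real.exp 1 * (d * T)) := by
      calc (s ^ q * 2 ^ k * Zk * P) * R = s ^ q * 2 ^ k * (Zk * (R * P)) := by ring
        _ ≤ d * (2 * (Real.exp 1 * Zk) * (T * s ^ q * (2 * 2 ^ k))) * P := h3
        _ = (s ^ q * 2 ^ k * Zk * P) * (4 * Real.exp 1 * (d * T)) := by ring
    exact le_of_mul_le_mul_left h5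
      (mul_pos (mul_pos (mul_pos hsq h2k) hZkpos) hPpos)
  have he : Real.exp 1 < 2.7182818286 := Real.exp_one_lt_d9
  have h6 : Real.exp 1 * (d * T) ≤ 2.7182818286 * (d * T) :=
    mul_le_mul_of_nonneg_right he.le hdT
  rw [← hR]
  linarith

/-- finite core of the grid lower bound with `M = 3k`. -/
theorem grid_core (k : ℕ) (hk : 1 ≤ k) (q : ℝ) (hq : 2 ≤ q) (d : ℕ) (s D : ℝ) (hs : 0 < s)
    (y : (Fin k → Fin (2 * (3 * k) + 1)) → Fin d → ℝ)
    (hlow : ∀ c c', s ^ q * ∑ e, |gX (3 * k) k c e - gX (3 * k) k c' e| ^ q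
      ≤ ∑ i, |y c i - y c' i| ^ q)
    (hup : ∀ c c', ∑ i, |y c i - y c' i| ^ q
      ≤ D ^ q * s ^ q * ∑ e, |gX (3 * k) k c e - gX (3 * k) k c' e| ^ q) :
    (1 / 11 : ℝ) * (2 * k / (3 * q ^ 2)) ^ (q / 2) ≤ D ^ q * d :=
  grid_core_aux (3 * k) k (by omega) hk q hq (gZ_defect k hk) d s D hs y hlow hup

end Vale.Agent.Lib.P249.H62
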